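import Vale.Agent.P271.Stmt
import Vale.Agent.P278.Stmt
import Vale.Agent.P272.Main

open scoped Manifold ContDiff
open Vale.Agent.P271.Stmt

theorem Vale.Agent.Results.P272.Ample.result (n : ℕ) (hn : 1 ≤ n) (X : Type) [TopologicalSpace X]
    [T2Space X] [CompactSpace X] [ConnectedSpace X] [ChartedSpace (Fin n → ℂ) X]
    [IsManifold 𝓘(ℂ, Fin n → ℂ) ω X]
    (h : Vale.Agent.P278S.FormField (Fin n → ℂ) X) (hK : Vale.Agent.P278S.IsKaehler h)
    (hB : ∀ f : ℂ → X, MDifferentiable 𝓘(ℂ, ℂ) 𝓘(ℂ, Fin n → ℂ) f → ∃ c, ∀ z, f z = c) :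
    Ample n (canonical n X) :=
  Vale.Agent.P272.main n hn X h hK hB
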